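import Vale.Agent.Helper29.KTV.JohnsonSharp

/-!
Pure algebra for the static part of the Johnson pair inequality (problem P335):
for a symmetric array `c` with zero diagonal and zero total sum on a finite set `J`,
twice the sum of the squared row sums is at most `(|J| - 2)` times the sum of the squares.
-/

set_option linter.unusedSectionVars false

namespace KTV

open Finset

namespace JD

section Static

variable {β : Type*} [DecidableEq β]

/-- row sums of a symmetric zero-diagonal array with zero total: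
`2 Σ_w r_w² ≤ (|J| - 2) Σ_{w,z} c_wz²` -/
theorem two_rowsq_le (J : Finset β) (c : β → β → ℝ) (hsymm : ∀ w z, c w z = c z w)
    (hdiag : ∀ w, c w w = 0) (hSg : ∑ w ∈ J, ∑ z ∈ J, c w z = 0) :
    2 * ∑ w ∈ J, (∑ z ∈ J, c w z) ^ 2
      ≤ ((J.card : ℝ) - 2) * ∑ w ∈ J, ∑ z ∈ J, c w z ^ 2 := by
  obtain ⟨r, hr⟩ : ∃ r : β → ℝ, ∀ w, r w = ∑ z ∈ J, c w z := ⟨_, fun _ => rfl⟩
  obtain ⟨R, hR⟩ : ∃ R : ℝ, R = ∑ w ∈ J, r w ^ 2 := ⟨_, rfl⟩
  obtain ⟨W, hW⟩ : ∃ W : ℝ, W = ∑ w ∈ J, ∑ z ∈ J, c w z ^ 2 := ⟨_, rfl⟩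
  have hgoal : ∑ w ∈ J, (∑ z ∈ J, c w z) ^ 2 = R := by
    rw [hR]; exact sum_congr rfl (fun w _ => by rw [hr w])
  rw [hgoal, ← hW]
  have hr0 : ∑ w ∈ J, r w = 0 := by
    rw [← hSg]; exact sum_congr rfl (fun w _ => hr w)
  have hR0 : 0 ≤ R := by rw [hR]; exact sum_nonneg fun w _ => sq_nonneg _
  have hW0 : 0 ≤ W := by
    rw [hW]; exact sum_nonneg fun w _ => sum_nonneg fun z _ => sq_nonneg _
  -- a w z = r w + r z off the diagonal
  obtain ⟨a, ha⟩ : ∃ a : β → β → ℝ, ∀ w z, a w z = if w = z then 0 else r w + r z :=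
    ⟨_, fun _ _ => rfl⟩
  -- 2R = Σ a c
  have h1 : ∑ w ∈ J, ∑ z ∈ J, r w * c w z = R := by
    rw [hR]
    refine sum_congr rfl fun w _ => ?_
    rw [← mul_sum, ← hr w, sq]
  have h2 : ∑ w ∈ J, ∑ z ∈ J, r z * c w z = R := by
    rw [sum_comm, ← h1]
    refine sum_congr rfl fun z _ => sum_congr rfl fun w _ => ?_
    rw [hsymm]
  have h3 : ∑ w ∈ J, ∑ z ∈ J, a w z * c w z = 2 * R := by
    have : ∑ w ∈ J, ∑ z ∈ J, a w z * c w z
        = ∑ w ∈ J, ∑ z ∈ J, (r w * c w z + r z * c w z) := by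
      refine sum_congr rfl fun w _ => sum_congr rfl fun z _ => ?_
      rw [ha w z]
      by_cases hwz : w = z
      · subst hwz; rw [if_pos rfl, hdiag]; ring
      · rw [if_neg hwz]; ring
    rw [this]
    simp only [sum_add_distrib]
    rw [h1, h2]; ring
  -- Σ a² = 2 (s - 2) R
  have h4 : ∑ w ∈ J, ∑ z ∈ J, a w z ^ 2 = 2 * ((J.card : ℝ) - 2) * R := by
    have e1 : ∀ w ∈ J, ∑ z ∈ J, a w z ^ 2 = ∑ z ∈ J, (r w + r z) ^ 2 - (2 * r w) ^ 2 := by
      intro w hw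
      have e2 : ∑ z ∈ J, a w z ^ 2 = ∑ z ∈ J.erase w, (r w + r z) ^ 2 := by
        rw [← Finset.add_sum_erase J _ hw, ha w w, if_pos rfl]
        simp only [ne_eq, OfNat.ofNat_ne_zero, not_false_eq_true, zero_pow, zero_add]
        refine sum_congr rfl fun z hz => ?_
        rw [ha w z, if_neg (Ne.symm (ne_of_mem_erase hz))]
      rw [e2, Finset.sum_erase_eq_sub hw]; ring
    rw [sum_congr rfl e1, sum_sub_distrib]
    have e3 : ∑ w ∈ J, ∑ z ∈ J, (r w + r z) ^ 2 = 2 * (J.card : ℝ) * R := by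
      have : ∀ w ∈ J, ∑ z ∈ J, (r w + r z) ^ 2
          = (J.card : ℝ) * r w ^ 2 + 2 * r w * (∑ z ∈ J, r z) + R := by
        intro w _
        have : ∑ z ∈ J, (r w + r z) ^ 2 = ∑ z ∈ J, (r w ^ 2 + 2 * r w * r z + r z ^ 2) :=
          sum_congr rfl (fun z _ => by ring)
        rw [this, sum_add_distrib, sum_add_distrib, sum_const, nsmul_eq_mul, ← mul_sum, hR]
      rw [sum_congr rfl this, hr0]
      simp only [mul_zero, add_zero]
      rw [sum_add_distrib, ← mul_sum, ← hR, sum_const, nsmul_eq_mul]; ring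
    have e4 : ∑ w ∈ J, (2 * r w) ^ 2 = 4 * R := by
      rw [hR, mul_sum]; exact sum_congr rfl (fun w _ => by ring)
    rw [e3, e4]; ring
  -- Cauchy-Schwarz on the double sum
  have hCS : (∑ w ∈ J, ∑ z ∈ J, a w z * c w z) ^ 2
      ≤ (∑ w ∈ J, ∑ z ∈ J, a w z ^ 2) * (∑ w ∈ J, ∑ z ∈ J, c w z ^ 2) := by
    have := Finset.sum_mul_sq_le_sq_mul_sq (J ×ˢ J) (fun p => a p.1 p.2) (fun p => c p.1 p.2)
    rw [Finset.sum_product, Finset.sum_product, Finset.sum_product] at this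
    exact this
  rw [h3, h4, ← hW] at hCS
  -- (2R)^2 ≤ 2 (s-2) R W
  rcases hR0.eq_or_lt with hRz | hRpos
  · rw [← hRz, mul_zero] at hCS ⊢
    by_cases hc : (2 : ℝ) ≤ (J.card : ℝ)
    · exact mul_nonneg (by linarith) hW0
    · -- card ≤ 1: W = 0
      have hcard : J.card ≤ 1 := by
        by_contra h
        exact hc (by exact_mod_cast (by omega : 2 ≤ J.card))
      have hWz : W = 0 := by
        rw [hW]
        refine sum_eq_zero fun w hw => sum_eq_zero fun z hz => ?_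
        have : w = z := Finset.card_le_one.mp hcard w hw z hz
        rw [this, hdiag]; ring
      rw [hWz, mul_zero]
  · have : R * (2 * R) ≤ R * (((J.card : ℝ) - 2) * W) := by nlinarith
    exact le_of_mul_le_mul_left this hRpos

/-- **Duality step** (Cauchy-Schwarz): a Gram bound for the test functions `φ p`
(for coefficient vectors of zero total sum) gives the bound for the squared correlations of
an arbitrary `g` with the `φ p`.  Here `P.card * Σ_x φ p x * g x - (Σ_x φ p x) * Σ_x g x`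
is `P.card` times the sum over `x` of `φ p x * (g x - mean g)`. -/
theorem dual_of_gram {X ι : Type*} (P : Finset X) (I : Finset ι) (φ : ι → X → ℝ)
    (K κ : ℝ) (hK : 0 ≤ K)
    (hgram : ∀ c : ι → ℝ, ∑ p ∈ I, c p = 0 →
      ∑ x ∈ P, (∑ p ∈ I, c p * φ p x) ^ 2 ≤ K * ∑ p ∈ I, c p ^ 2)
    (hconst : ∀ x ∈ P, ∑ p ∈ I, φ p x = κ) (g : X → ℝ) :
    ∑ p ∈ I, ((P.card : ℝ) * (∑ x ∈ P, φ p x * g x) - (∑ x ∈ P, φ p x) * ∑ x ∈ P, g x) ^ 2
      ≤ K * (P.card : ℝ) * jV P g := by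
  obtain ⟨N, hN⟩ : ∃ N : ℝ, N = (P.card : ℝ) := ⟨_, rfl⟩
  obtain ⟨T, hT⟩ : ∃ T : ℝ, T = ∑ x ∈ P, g x := ⟨_, rfl⟩
  obtain ⟨d, hd⟩ : ∃ d : ι → ℝ, ∀ p, d p = N * (∑ x ∈ P, φ p x * g x) - (∑ x ∈ P, φ p x) * T :=
    ⟨_, fun _ => rfl⟩
  have hgoal : ∑ p ∈ I, ((P.card : ℝ) * (∑ x ∈ P, φ p x * g x)
      - (∑ x ∈ P, φ p x) * ∑ x ∈ P, g x) ^ 2 = ∑ p ∈ I, d p ^ 2 :=
    sum_congr rfl (fun p _ => by rw [hd p, hN, hT])
  rw [hgoal, ← hN]
  have hN0 : 0 ≤ N := by rw [hN]; exact Nat.cast_nonneg _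
  have hV0 : 0 ≤ jV P g := jV_nonneg P g
  -- d p = Σ_x φ p x * (N g x - T)
  have hd' : ∀ p, d p = ∑ x ∈ P, φ p x * (N * g x - T) := by
    intro p
    rw [hd p]
    have : ∑ x ∈ P, φ p x * (N * g x - T) = ∑ x ∈ P, (N * (φ p x * g x) - φ p x * T) :=
      sum_congr rfl (fun x _ => by ring)
    rw [this, sum_sub_distrib, ← mul_sum, ← sum_mul]
  have hu0 : ∑ x ∈ P, (N * g x - T) = 0 := by
    rw [sum_sub_distrib, ← mul_sum, sum_const, nsmul_eq_mul, ← hT, ← hN]; ring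
  -- Σ_p d p = 0
  have hdsum : ∑ p ∈ I, d p = 0 := by
    calc ∑ p ∈ I, d p = ∑ p ∈ I, ∑ x ∈ P, φ p x * (N * g x - T) :=
          sum_congr rfl (fun p _ => hd' p)
      _ = ∑ x ∈ P, ∑ p ∈ I, φ p x * (N * g x - T) := sum_comm
      _ = ∑ x ∈ P, κ * (N * g x - T) :=
          sum_congr rfl (fun x hx => by rw [← sum_mul, hconst x hx])
      _ = 0 := by rw [← mul_sum, hu0, mul_zero]
  -- Σ_p d p ^2 = Σ_x (N g x - T) * F x
  have hsq : ∑ p ∈ I, d p ^ 2 = ∑ x ∈ P, (N * g x - T) * (∑ p ∈ I, d p * φ p x) := by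
    calc ∑ p ∈ I, d p ^ 2 = ∑ p ∈ I, ∑ x ∈ P, d p * (φ p x * (N * g x - T)) := by
          refine sum_congr rfl fun p _ => ?_
          rw [← mul_sum, ← hd' p, sq]
      _ = ∑ x ∈ P, ∑ p ∈ I, d p * (φ p x * (N * g x - T)) := sum_comm
      _ = ∑ x ∈ P, (N * g x - T) * (∑ p ∈ I, d p * φ p x) := by
          refine sum_congr rfl fun x _ => ?_
          rw [mul_sum]
          exact sum_congr rfl (fun p _ => by ring)
  have hu2 : ∑ x ∈ P, (N * g x - T) ^ 2 = N * jV P g := by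
    calc ∑ x ∈ P, (N * g x - T) ^ 2
        = ∑ x ∈ P, (N ^ 2 * g x ^ 2 - 2 * N * T * g x + T ^ 2) :=
          sum_congr rfl (fun x _ => by ring)
      _ = N ^ 2 * ∑ x ∈ P, g x ^ 2 - 2 * N * T * ∑ x ∈ P, g x + (P.card : ℝ) * T ^ 2 := by
          rw [sum_add_distrib, sum_sub_distrib, ← mul_sum, ← mul_sum, sum_const, nsmul_eq_mul]
      _ = N * jV P g := by
          unfold jV
          rw [← hN, ← hT]; ring
  have hCS := Finset.sum_mul_sq_le_sq_mul_sq P (fun x => N * g x - T)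
    (fun x => ∑ p ∈ I, d p * φ p x)
  rw [← hsq, hu2] at hCS
  have hG := hgram d hdsum
  have hX0 : 0 ≤ ∑ p ∈ I, d p ^ 2 := sum_nonneg fun p _ => sq_nonneg _
  rcases hX0.eq_or_lt with hX | hX
  · rw [← hX]; positivity
  · have : (∑ p ∈ I, d p ^ 2) * (∑ p ∈ I, d p ^ 2) ≤ (K * N * jV P g) * (∑ p ∈ I, d p ^ 2) := by
      calc (∑ p ∈ I, d p ^ 2) * (∑ p ∈ I, d p ^ 2) = (∑ p ∈ I, d p ^ 2) ^ 2 := by ring
        _ ≤ N * jV P g * ∑ x ∈ P, (∑ p ∈ I, d p * φ p x) ^ 2 := hCS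
        _ ≤ N * jV P g * (K * ∑ p ∈ I, d p ^ 2) :=
            mul_le_mul_of_nonneg_left hG (mul_nonneg hN0 hV0)
        _ = (K * N * jV P g) * (∑ p ∈ I, d p ^ 2) := by ring
    exact le_of_mul_le_mul_right this hX

end Static

end JD

end KTV
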